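import Vale.Agent.P040.H84.ValDef
import Vale.Agent.P040.H908.TriVal

/-!
# P040, both parts odd: change of the pages of the leaves, and limits of values (helper510)

`Val.page`: if two systems of leaves have the same positions (but different pages), a closed curve
has values in both, and the two values differ by a bounded amount.

`Lim`: a sequence of values which is monotone up to a linear term, bounded up to a linear term, and
lies in a lattice, is eventually linear.
-/

set_option autoImplicit false

namespace Vale.Agent.P040.H510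

open Pst P040H251 H84

/-! ### change of pages -/

/-- the same curve for another distribution of the masses to the two pages -/
theorem crv_page {D D' : P040H251.Dat ℝ} {s : Bool} {L : List ℝ} {E : ℝ → ℝ} (h : Crv D s L E)
    (hlab : D'.lab = D.lab) (hM : D'.M = D.M)
    (hC : ∀ j, D'.C true j + D'.C false j = D.C true j + D.C false j) :
    Crv D' s L (fun x => E x + (D'.C true (D.lab x) - D.C true (D.lab x))) where
  cl := h.cl
  pl := h.pl
  inc := by
    intro b x hx
    have h1 := h.inc b x hx
    have e1 := hC (D.lab x)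
    have e2 := hC (D.lab (fO s L b x))
    rw [hlab, hM]
    cases b
    · have e : H906.sg false = -1 := by simp [H906.sg]
      rw [e] at h1 ⊢
      split_ifs at h1 ⊢ <;> linarith
    · have e : H906.sg true = 1 := by simp [H906.sg]
      rw [e] at h1 ⊢
      split_ifs at h1 ⊢ <;> linarith

/-- the value moves at most by the size of the change of the phase -/
theorem val_close {D D' : P040H251.Dat ℝ} {s : Bool} {L : List ℝ} {E E' : ℝ → ℝ} {K : ℝ}
    (h : Crv D s L E) (h' : Crv D' s L E') (hK : ∀ x ∈ L, |E' x - E x| ≤ K) :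
    |selApi.val s L E' - selApi.val s L E| ≤ K := by
  have h1 := H908.val_mono selApi h.good h.valid h'.valid (-K) fun p hp => by
    have := abs_le.1 (hK p hp); linarith [this.1]
  have h2 := H908.val_mono selApi h.good h'.valid h.valid (-K) fun p hp => by
    have := abs_le.1 (hK p hp); linarith [this.2]
  rw [abs_le]
  constructor <;> linarith

section
variable {h : ℕ} {P P' : LData h}

theorem rk_eq (hpos : P'.pos = P.pos) : P'.rk = P.rk := by
  funext x
  unfold LData.rk
  rw [hpos]

theorem cnt_sum (P : LData h) (j : ℕ) : P.cnt true j + P.cnt false j =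
    (Finset.univ.filter fun i => P.rk (P.pos i) < j).card := by
  unfold LData.cnt
  have e : ∀ b, (Finset.univ.filter fun i => P.pg i = b ∧ P.rk (P.pos i) < j) =
      (Finset.univ.filter fun i => P.rk (P.pos i) < j).filter fun i => P.pg i = b := by
    intro b
    ext i
    simp only [Finset.mem_filter, Finset.mem_univ, true_and]
    tauto
  rw [e, e]
  have h1 := Finset.card_filter_add_card_filter_not
    (s := Finset.univ.filter fun i => P.rk (P.pos i) < j) (fun i => P.pg i = true)
  have h2 : ((Finset.univ.filter fun i => P.rk (P.pos i) < j).filter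
      fun i => ¬ P.pg i = true) =
      (Finset.univ.filter fun i => P.rk (P.pos i) < j).filter fun i => P.pg i = false := by
    apply Finset.filter_congr
    intro i _
    simp
  rw [h2] at h1
  exact h1

/-- the same leaves with other pages -/
def chg (P : LData h) (pg : Fin (2 * h) → Bool)
    (bal : ∀ b, (Finset.univ.filter fun i => pg i = b).card = h) : LData h where
  pos := P.pos
  inj := P.inj
  pg := pg
  bal := bal
  two_le := P.two_le

theorem exists_chg (hpos : P'.pos = P.pos) : ∃ bal, P' = chg P P'.pg bal := by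
  refine ⟨P'.bal, ?_⟩
  obtain ⟨pos, inj, pg, bal, two⟩ := P
  obtain ⟨pos', inj', pg', bal', two'⟩ := P'
  dsimp only at hpos
  subst hpos
  rfl

/-- **Change of pages.** The same curve has a value for the other pages; the values differ by at
most `2 K`, where `K` bounds the difference of the masses to the left in the upper page. -/
theorem val_chg {pg : Fin (2 * h) → Bool}
    {bal : ∀ b, (Finset.univ.filter fun i => pg i = b).card = h} {K : ℝ}
    (hK : ∀ j, |((chg P pg bal).cnt true j : ℝ) - P.cnt true j| ≤ K)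
    {z : Fin (2 * h)} {R : FreeGroup ℕ} {v : ℝ} (hv : P.Val z R v) :
    ∃ v', (chg P pg bal).Val z R v' ∧ |v' - v| ≤ 2 * K := by
  obtain ⟨r, l, L, E, hE, hfat, hwd, rfl⟩ := hv
  set P' := chg P pg bal with hP'
  have hC : ∀ j, P'.D0.C true j + P'.D0.C false j = P.D0.C true j + P.D0.C false j := by
    intro j
    show (P'.cnt true j : ℝ) + P'.cnt false j = (P.cnt true j : ℝ) + P.cnt false j
    have h1 := cnt_sum P' j
    have h2 := cnt_sum P j
    have h3 : P'.cnt true j + P'.cnt false j = P.cnt true j + P.cnt false j := by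
      rw [h1, h2]; rfl
    exact_mod_cast h3
  have h1 := crv_page (D' := P'.D0) hE rfl rfl hC
  have h2 : ∀ x, |(E x + (P'.D0.C true (P.D0.lab x) - P.D0.C true (P.D0.lab x))) - E x| ≤ K := by
    intro x
    rw [add_sub_cancel_left]
    exact hK _
  refine ⟨_, ⟨r, l, L, _, h1, ⟨hfat.fl, hfat.lz, hfat.zr, hfat.emp, hfat.rkl, hfat.rkr⟩, hwd, rfl⟩,
    ?_⟩
  have h3 := abs_le.1 (val_close hE h1 fun x _ => h2 x)
  have h4 := abs_le.1 (h2 r)
  rw [abs_le]
  constructor <;> linarith [h3.1, h3.2, h4.1, h4.2]

/-- the general form: the same positions, any pages; the values differ by at most `2 h` -/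
theorem val_page (hpos : P'.pos = P.pos) {z : Fin (2 * h)} {R : FreeGroup ℕ} {v : ℝ}
    (hv : P.Val z R v) : ∃ v', P'.Val z R v' ∧ |v' - v| ≤ 2 * h := by
  obtain ⟨bal, hP⟩ := exists_chg hpos
  rw [hP]
  refine val_chg (K := h) (fun j => ?_) hv
  have h1 : ((chg P P'.pg bal).cnt true j : ℝ) ≤ h := by
    exact_mod_cast (chg P P'.pg bal).cnt_le true j
  have h2 : (P.cnt true j : ℝ) ≤ h := by exact_mod_cast P.cnt_le true j
  have h3 : (0 : ℝ) ≤ (chg P P'.pg bal).cnt true j := Nat.cast_nonneg _
  have h4 : (0 : ℝ) ≤ P.cnt true j := Nat.cast_nonneg _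
  rw [abs_le]
  constructor <;> linarith

end

/-! ### limits -/

/-- a monotone bounded sequence in a lattice is eventually constant -/
theorem eventually_const {u : ℕ → ℝ} {κ δ K : ℝ} (hδ : 0 < δ) (hm : Monotone u)
    (hb : ∀ j, u j ≤ K) (hl : ∀ j, ∃ n : ℤ, u j = κ + n * δ) :
    ∃ J, ∀ j, J ≤ j → u j = u J := by
  choose n hn using hl
  have hnm : Monotone n := by
    intro i j hij
    have h1 := hm hij
    rw [hn i, hn j] at h1
    have h2 : (n i : ℝ) * δ ≤ n j * δ := by linarith
    have h3 : (n i : ℝ) ≤ n j := le_of_mul_le_mul_right h2 hδ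
    exact_mod_cast h3
  have hnb : ∀ j, n j ≤ ⌈(K - κ) / δ⌉ := by
    intro j
    have h1 := hb j
    rw [hn j] at h1
    have h2 : (n j : ℝ) ≤ (K - κ) / δ := by rw [le_div_iff₀ hδ]; linarith
    have h3 : (n j : ℝ) ≤ (⌈(K - κ) / δ⌉ : ℤ) := h2.trans (Int.le_ceil _)
    exact_mod_cast h3
  -- a bounded monotone sequence of integers
  obtain ⟨J, hJ⟩ : ∃ J, ∀ j, n j ≤ n J := by
    obtain ⟨m, ⟨J, rfl⟩, hm'⟩ := Int.exists_greatest_of_bdd (P := fun z => ∃ j, n j = z)
      ⟨_, fun z hz => by obtain ⟨j, rfl⟩ := hz; exact hnb j⟩ ⟨_, 0, rfl⟩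
    exact ⟨J, fun j => hm' _ ⟨j, rfl⟩⟩
  refine ⟨J, fun j hj => ?_⟩
  rw [hn j, hn J, le_antisymm (hJ j) (hnm hj)]

/-- an antitone bounded sequence in a lattice is eventually constant -/
theorem eventually_const' {u : ℕ → ℝ} {κ δ K : ℝ} (hδ : 0 < δ) (hm : Antitone u)
    (hb : ∀ j, K ≤ u j) (hl : ∀ j, ∃ n : ℤ, u j = κ + n * δ) :
    ∃ J, ∀ j, J ≤ j → u j = u J := by
  obtain ⟨J, hJ⟩ := eventually_const (u := fun j => - u j) (κ := -κ) (K := -K) hδ
    (fun i j hij => neg_le_neg (hm hij)) (fun j => neg_le_neg (hb j)) (fun j => by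
      obtain ⟨n, hn⟩ := hl j
      refine ⟨-n, ?_⟩
      push_cast
      linarith)
  exact ⟨J, fun j hj => neg_injective (hJ j hj)⟩

section lim

variable {G : Type*}

/-- The value in the limit of many steps `ρ` with drift `c`. -/
def ValLim (ρ : G → G) (c : ℝ) (V : G → ℝ → Prop) (R : G) (v : ℝ) : Prop :=
  ∃ J : ℕ, ∀ j, J ≤ j → V (ρ^[j] R) (v + j * c)

variable {ρ : G → G} {c : ℝ} {V V0 : G → ℝ → Prop} {R R' : G} {v v' : ℝ}

theorem ValLim.uniq (hu : ∀ {R v v'}, V R v → V R v' → v = v') (h : ValLim ρ c V R v)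
    (h' : ValLim ρ c V R v') : v = v' := by
  obtain ⟨J, hJ⟩ := h
  obtain ⟨J', hJ'⟩ := h'
  have h1 := hu (hJ (max J J') (le_max_left _ _)) (hJ' (max J J') (le_max_right _ _))
  linarith

/-- exactness of the step in the limit -/
theorem ValLim.step (h : ValLim ρ c V R v) : ValLim ρ c V (ρ R) (v + c) := by
  obtain ⟨J, hJ⟩ := h
  refine ⟨J, fun j hj => ?_⟩
  have h1 := hJ (j + 1) (by omega)
  rw [Function.iterate_succ_apply] at h1
  push_cast at h1
  rw [show v + (j + 1) * c = v + c + j * c by ring] at h1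
  exact h1

theorem ValLim.iter (h : ValLim ρ c V R v) (k : ℕ) : ValLim ρ c V (ρ^[k] R) (v + k * c) := by
  induction k with
  | zero => simpa using h
  | succ k ih =>
    rw [Function.iterate_succ_apply']
    have := ih.step
    push_cast
    rw [show v + (k + 1) * c = v + k * c + c by ring]
    exact this

/-- **Existence of the limit**: the step is monotone for `V`, exact for `V0`, and the two values
stay close; the values lie in a lattice which contains the drift. -/
theorem exists_valLim {δ B : ℝ} {κ : ℝ} (hδ : 0 < δ)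
    (hu : ∀ {R v v'}, V R v → V R v' → v = v')
    (hu0 : ∀ {R v v'}, V0 R v → V0 R v' → v = v')
    (hm : ∀ {R v}, V R v → ∃ v', V (ρ R) v' ∧ v + c ≤ v')
    (hex : ∀ {R v}, V0 R v → V0 (ρ R) (v + c))
    (hcl : ∀ {R v}, V R v → ∃ v', V0 R v' ∧ |v' - v| ≤ B)
    (hl : ∀ (j : ℕ) {v}, V (ρ^[j] R) v → ∃ n : ℤ, v - j * c = κ + n * δ)
    (hv : V R v) : ∃ w, ValLim ρ c V R w ∧ |w - v| ≤ 2 * B := by
  have hex' : ∀ j : ℕ, ∃ x, V (ρ^[j] R) x ∧ v + j * c ≤ x := by
    intro j
    induction j with
    | zero => exact ⟨v, by simpa using hv, by simp⟩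
    | succ j ih =>
      obtain ⟨x, hx, hxv⟩ := ih
      obtain ⟨y, hy, hxy⟩ := hm hx
      refine ⟨y, by rw [Function.iterate_succ_apply']; exact hy, ?_⟩
      push_cast
      linarith
  choose x hx hxv using hex'
  obtain ⟨v0, hv0, hc0⟩ := hcl hv
  have h0 : ∀ j : ℕ, V0 (ρ^[j] R) (v0 + j * c) := by
    intro j
    induction j with
    | zero => simpa using hv0
    | succ j ih =>
      rw [Function.iterate_succ_apply']
      have := hex ih
      push_cast
      rw [show v0 + (j + 1) * c = v0 + j * c + c by ring]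
      exact this
  have hup : ∀ j : ℕ, x j - j * c ≤ v + 2 * B := by
    intro j
    obtain ⟨y, hy, hyb⟩ := hcl (hx j)
    have e := hu0 hy (h0 j)
    rw [e] at hyb
    have h1 := (abs_le.1 hyb).1
    have h2 := (abs_le.1 hc0).2
    linarith
  have hmono : Monotone fun j : ℕ => x j - j * c := by
    apply monotone_nat_of_le_succ
    intro j
    obtain ⟨y, hy, hxy⟩ := hm (hx j)
    have e : y = x (j + 1) := hu hy (by
      have := hx (j + 1)
      rwa [Function.iterate_succ_apply'] at this)
    push_cast
    linarith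
  obtain ⟨J, hJ⟩ := eventually_const (κ := κ) (K := v + 2 * B) hδ hmono hup
    (fun j => hl j (hx j))
  refine ⟨x J - J * c, ⟨J, fun j hj => ?_⟩, ?_⟩
  · have h1 := hJ j hj
    have h2 : x j = x J - J * c + j * c := by linarith
    rw [← h2]
    exact hx j
  · have h1 := hup J
    have h2 := hxv J
    rw [abs_le]
    constructor <;> linarith [abs_nonneg (v0 - v)]

/-- two values in the limit, at a common large step -/
theorem ValLim.common (h : ValLim ρ c V R v) (h' : ValLim ρ c V R' v') (N : ℕ) :
    ∃ j, N ≤ j ∧ V (ρ^[2 * j] R) (v + (2 * j : ℕ) * c) ∧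
      V (ρ^[2 * j] R') (v' + (2 * j : ℕ) * c) := by
  obtain ⟨J, hJ⟩ := h
  obtain ⟨J', hJ'⟩ := h'
  refine ⟨max N (max J J'), le_max_left _ _, hJ _ ?_, hJ' _ ?_⟩
  · have := le_max_right N (max J J'); have := le_max_left J J'; omega
  · have := le_max_right N (max J J'); have := le_max_right J J'; omega

end lim

end Vale.Agent.P040.H510
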